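import Vale.Agent.P181.TW.Defs
import Vale.Agent.P181.SZT0.Tr

set_option autoImplicit false

/-!
# P181, TW, T1: one frozen column

`TI(t + 1, x + 1) ≤ TI(t + 1, x) + N_(x+1)(t)`: the part of degree `x + 1` in column `0`.
-/

open MvPolynomial

namespace Vale.Agent.P181.TW.T1

open Vale.Agent.P181.T4 (HW rowOp rowOp_apply mem_HW)
open Vale.Agent.P181.SZ (TI mem_TI)
open Vale.Agent.P181.SZT0 (rc inj_pr rc_inj coeff_rc rc_mem_HW)

section pc

variable {m : ℕ} {B : Type} [DecidableEq B]

/-- The weight of one column. -/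
def w1 (m : ℕ) (c : B) : Fin m × B → ℕ := fun p => if p.2 = c then 1 else 0

lemma weight_w1 (c : B) (v : Fin m × B →₀ ℕ) :
    Finsupp.weight (w1 m c) v = ∑ i, v (i, c) := by
  induction v using Finsupp.induction_linear with
  | zero => simp
  | add u v hu hv =>
    rw [map_add, hu, hv, ← Finset.sum_add_distrib]
    rfl
  | single p n =>
    rw [Finsupp.weight_single]
    obtain ⟨i0, b0⟩ := p
    by_cases h : b0 = c
    · subst h
      rw [Finset.sum_eq_single i0]
      · simp [w1]
      · intro i _ hi
        rw [Finsupp.single_apply, if_neg]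
        intro h
        exact hi (congrArg Prod.fst h).symm
      · intro h
        exact absurd (Finset.mem_univ _) h
    · rw [Finset.sum_eq_zero]
      · simp [w1, h]
      · intro i _
        rw [Finsupp.single_apply, if_neg]
        intro h1
        exact h (congrArg Prod.snd h1)

/-- The part of degree `x` in the column `c`. -/
noncomputable def pc (c : B) (x : ℕ) :
    MvPolynomial (Fin m × B) ℂ →ₗ[ℂ] MvPolynomial (Fin m × B) ℂ :=
  weightedHomogeneousComponent (w1 m c) x

lemma coeff_pc (c : B) (x : ℕ) (f : MvPolynomial (Fin m × B) ℂ) (v : Fin m × B →₀ ℕ) :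
    coeff v (pc c x f) = if ∑ i, v (i, c) = x then coeff v f else 0 := by
  classical
  rw [pc, coeff_weightedHomogeneousComponent, weight_w1]

lemma pc_monomial_of_eq (c : B) (x : ℕ) (v : Fin m × B →₀ ℕ) (r : ℂ)
    (h : ∑ i, v (i, c) = x) : pc c x (monomial v r) = monomial v r := by
  classical
  ext u
  rw [coeff_pc, coeff_monomial]
  by_cases hu : v = u
  · subst hu
    rw [if_pos h]
  · rw [if_neg hu, ite_self]

lemma pc_monomial_of_ne (c : B) (x : ℕ) (v : Fin m × B →₀ ℕ) (r : ℂ)
    (h : ¬ ∑ i, v (i, c) = x) : pc c x (monomial v r) = 0 := by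
  classical
  ext u
  rw [coeff_pc, coeff_monomial, coeff_zero]
  by_cases hu : v = u
  · subst hu
    rw [if_neg h]
  · rw [if_neg hu, ite_self]

lemma pc_rowOp [Fintype B] (c : B) (x : ℕ) (s i : Fin m) (f : MvPolynomial (Fin m × B) ℂ) :
    rowOp s i (pc c x f) = pc c x (rowOp s i f) := by
  classical
  induction f using MvPolynomial.induction_on' with
  | monomial v r =>
    have h1 : ∀ j, X (s, j) * pderiv (i, j) (monomial v r) =
        monomial (Finsupp.single (s, j) 1 + (v - Finsupp.single (i, j) 1)) (r * v (i, j)) := by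
      intro j
      rw [pderiv_monomial, X, monomial_mul, one_mul]
    have h2 : ∀ j, v (i, j) ≠ 0 → ∑ i', (Finsupp.single (s, j) 1 +
        (v - Finsupp.single (i, j) 1) : Fin m × B →₀ ℕ) (i', c) = ∑ i', v (i', c) := by
      intro j hj
      rw [← weight_w1, ← weight_w1]
      have h3 : v = Finsupp.single (i, j) 1 + (v - Finsupp.single (i, j) 1) := by
        ext p
        simp only [Finsupp.add_apply, Finsupp.tsub_apply, Finsupp.single_apply]
        split_ifs with h
        · subst h
          omega
        · omega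
      conv_rhs => rw [h3]
      rw [map_add, map_add, Finsupp.weight_single, Finsupp.weight_single]
      rfl
    by_cases hv : ∑ i, v (i, c) = x
    · rw [pc_monomial_of_eq c x v r hv, rowOp_apply, map_sum]
      refine Finset.sum_congr rfl fun j _ => ?_
      rw [h1 j]
      by_cases hj : v (i, j) = 0
      · rw [hj, Nat.cast_zero, mul_zero, monomial_zero, map_zero]
      · rw [pc_monomial_of_eq]
        rw [h2 j hj, hv]
    · rw [pc_monomial_of_ne c x v r hv, map_zero, rowOp_apply, map_sum]
      symm
      refine Finset.sum_eq_zero fun j _ => ?_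
      rw [h1 j]
      by_cases hj : v (i, j) = 0
      · rw [hj, Nat.cast_zero, mul_zero, monomial_zero, map_zero]
      · rw [pc_monomial_of_ne]
        rw [h2 j hj]
        exact hv
  | add p q hp hq => rw [map_add, map_add, map_add, map_add, hp, hq]

lemma pc_pderiv {c j : B} (hj : j ≠ c) (x : ℕ) (i : Fin m) (f : MvPolynomial (Fin m × B) ℂ) :
    pc c x (pderiv (i, j) f) = pderiv (i, j) (pc c x f) := by
  classical
  induction f using MvPolynomial.induction_on' with
  | monomial v r =>
    have h2 : ∑ i', (v - Finsupp.single (i, j) 1 : Fin m × B →₀ ℕ) (i', c) =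
        ∑ i', v (i', c) := by
      apply Finset.sum_congr rfl
      intro i' _
      rw [Finsupp.tsub_apply, Finsupp.single_apply, if_neg, Nat.sub_zero]
      intro h
      exact hj (congrArg Prod.snd h)
    rw [pderiv_monomial]
    by_cases hv : ∑ i, v (i, c) = x
    · rw [pc_monomial_of_eq c x v r hv, pc_monomial_of_eq _ _ _ _ (h2.trans hv), pderiv_monomial]
    · rw [pc_monomial_of_ne c x v r hv, pc_monomial_of_ne _ _ _ _ (by rw [h2]; exact hv),
        map_zero]
  | add p q hp hq => rw [map_add, map_add, map_add, map_add, hp, hq]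

lemma pc_pderiv_self {c : B} {x : ℕ} (i : Fin m) {f : MvPolynomial (Fin m × B) ℂ}
    (hf : ∀ v, coeff v f ≠ 0 → ∑ i, v (i, c) ≤ x) : pc c x (pderiv (i, c) f) = 0 := by
  classical
  apply MvPolynomial.ext
  intro v
  rw [coeff_pc, coeff_zero]
  split_ifs with h
  · rw [coeff_pderiv]
    have h1 : coeff (v + Finsupp.single (i, c) 1) f = 0 := by
      by_contra h2
      have h3 := hf _ h2
      rw [← weight_w1, map_add, Finsupp.weight_single, weight_w1, h, w1, if_pos rfl,
        smul_eq_mul] at h3
      omega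
    rw [h1, zero_mul]
  · rfl

lemma pc_rename (c : B) (x : ℕ) (e : Equiv.Perm B) (he : e c = c)
    (f : MvPolynomial (Fin m × B) ℂ) :
    rename (fun p : Fin m × B => (p.1, e p.2)) (pc c x f) =
      pc c x (rename (fun p : Fin m × B => (p.1, e p.2)) f) := by
  classical
  have hinj : Function.Injective (fun p : Fin m × B => (p.1, e p.2)) :=
    inj_pr e.injective
  induction f using MvPolynomial.induction_on' with
  | monomial v r =>
    have h1 : ∑ i, (v.mapDomain (fun p : Fin m × B => (p.1, e p.2))) (i, c) =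
        ∑ i, v (i, c) := by
      apply Finset.sum_congr rfl
      intro i _
      have h2 := Finsupp.mapDomain_apply hinj v (i, c)
      simp only [he] at h2
      exact h2
    rw [rename_monomial]
    by_cases hv : ∑ i, v (i, c) = x
    · rw [pc_monomial_of_eq c x v r hv, rename_monomial, pc_monomial_of_eq]
      rw [h1, hv]
    · rw [pc_monomial_of_ne c x v r hv, map_zero, pc_monomial_of_ne]
      rw [h1]
      exact hv
  | add p q hp hq => rw [map_add, map_add, map_add, map_add, hp, hq]

end pc

variable {m : ℕ}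

/-- The part of the highest degree in column `0`. -/
lemma mem_of_TI {c y : ℕ} {mu : Fin m → ℕ} {f : MvPolynomial (Fin m × Fin (c + 1)) ℂ}
    (hf : f ∈ TI (c + 1) (y + 1) m mu) :
    rc m (finSuccEquiv c) (pc 0 (y + 1) f) ∈ PX m (y + 1) c mu := by
  rw [mem_TI] at hf
  obtain ⟨h0, h1, h2, h3⟩ := hf
  rw [mem_HW] at h0
  obtain ⟨h0, h0'⟩ := h0
  have hι : Function.Injective (finSuccEquiv c) := (finSuccEquiv c).injective
  rw [mem_PX]
  refine ⟨?_, ?_, ?_, ?_⟩
  · rw [rc_mem_HW hι, mem_HW]
    constructor
    · intro v hv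
      apply h0
      rw [coeff_pc] at hv
      split_ifs at hv with h
      · exact hv
      · exact absurd rfl hv
    · intro s i hsi
      rw [pc_rowOp, h0' s i hsi, map_zero]
  · intro v hv
    obtain ⟨u, hu, h4, _⟩ := coeff_rc hι hv
    rw [coeff_pc] at hu
    split_ifs at hu with h
    · rw [← h]
      refine Finset.sum_congr rfl fun i _ => ?_
      have h5 := h4 i 0
      rw [finSuccEquiv_zero] at h5
      exact h5
    · exact absurd rfl hu
  · intro e
    have h5 : rename (fun p : Fin m × Option (Fin c) => (p.1, p.2.map e))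
        (rc m (finSuccEquiv c) (pc 0 (y + 1) f)) = rc m (finSuccEquiv c)
          (rename (fun p : Fin m × Fin (c + 1) =>
            (p.1, ((finSuccEquiv c).trans (Equiv.optionCongr e)).trans (finSuccEquiv c).symm p.2))
              (pc 0 (y + 1) f)) := by
      rw [rc, rename_rename, rename_rename]
      congr 2
      funext p
      simp only [Function.comp_apply, Equiv.trans_apply, Equiv.apply_symm_apply,
        Equiv.optionCongr_apply]
    rw [h5, pc_rename, h1]
    simp only [Equiv.trans_apply, finSuccEquiv_zero, Equiv.optionCongr_apply, Option.map_none,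
      finSuccEquiv_symm_none]
  · intro i
    have h4 : ∀ j : Fin c, pderiv (i, some j)
        (rc m (finSuccEquiv c) (pc 0 (y + 1) f)) =
          rc m (finSuccEquiv c) (pc 0 (y + 1) (pderiv (i, j.succ) f)) := by
      intro j
      rw [pc_pderiv (Fin.succ_ne_zero j)]
      have h5 := pderiv_rename (inj_pr (m := m) hι) (i, j.succ) (pc 0 (y + 1) f)
      simp only [finSuccEquiv_succ] at h5
      exact h5
    rw [Finset.sum_congr rfl fun j _ => h4 j, ← map_sum, ← map_sum]
    have h5 := h3 i
    rw [Fin.sum_univ_succ] at h5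
    have h6 : pc 0 (y + 1) (∑ j : Fin c, pderiv (i, j.succ) f) = 0 := by
      have h7 := congrArg (pc 0 (y + 1)) h5
      rw [map_add, map_zero, pc_pderiv_self i (fun v hv => h2 v hv 0), zero_add] at h7
      exact h7
    rw [h6, map_zero]

/-- The kernel. -/
lemma mem_TI_of_ker {c y : ℕ} {mu : Fin m → ℕ} {f : MvPolynomial (Fin m × Fin (c + 1)) ℂ}
    (hf : f ∈ TI (c + 1) (y + 1) m mu) (h : rc m (finSuccEquiv c) (pc 0 (y + 1) f) = 0) :
    f ∈ TI (c + 1) y m mu := by
  classical
  rw [mem_TI] at hf ⊢
  obtain ⟨h0, h1, h2, h3⟩ := hf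
  refine ⟨h0, h1, fun v hv j => ?_, h3⟩
  have h4 : pc 0 (y + 1) f = 0 :=
    (map_eq_zero_iff _ (rc_inj (m := m) (finSuccEquiv c).injective)).1 h
  have hinj : Function.Injective (fun p : Fin m × Fin (c + 1) => (p.1, Equiv.swap 0 j p.2)) :=
    inj_pr (Equiv.swap 0 j).injective
  have h5 : coeff (v.mapDomain (fun p : Fin m × Fin (c + 1) => (p.1, Equiv.swap 0 j p.2))) f =
      coeff v f := by
    conv_lhs => rw [← h1 (Equiv.swap 0 j)]
    exact coeff_rename_mapDomain _ hinj f v
  have h6 : ∑ i, (v.mapDomain (fun p : Fin m × Fin (c + 1) => (p.1, Equiv.swap 0 j p.2)))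
      (i, 0) = ∑ i, v (i, j) := by
    apply Finset.sum_congr rfl
    intro i _
    have h7 := Finsupp.mapDomain_apply hinj v (i, j)
    simp only [Equiv.swap_apply_right] at h7
    exact h7
  have h7 := coeff_pc (m := m) 0 (y + 1) f
    (v.mapDomain (fun p : Fin m × Fin (c + 1) => (p.1, Equiv.swap 0 j p.2)))
  rw [h4, coeff_zero, h5, h6] at h7
  have h8 := h2 v hv j
  by_contra h9
  rw [if_pos (by omega)] at h7
  exact hv h7.symm

/-- The map. -/
noncomputable def top (c y : ℕ) (mu : Fin m → ℕ) :
    TI (c + 1) (y + 1) m mu →ₗ[ℂ] PX m (y + 1) c mu :=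
  LinearMap.codRestrict _ (((rc m (finSuccEquiv c)).toLinearMap ∘ₗ pc 0 (y + 1)) ∘ₗ
    (TI (c + 1) (y + 1) m mu).subtype) fun f => mem_of_TI f.2

/-- **(E1)** the component of degree `x + 1` in the first column. -/
theorem e1 : E1 := by
  intro t x m mu
  have h1 := LinearMap.finrank_range_add_finrank_ker (top t x mu)
  have h2 : Module.finrank ℂ (LinearMap.range (top t x mu)) ≤ NX m (x + 1) t mu :=
    Submodule.finrank_le _
  have h4 : Module.finrank ℂ (LinearMap.ker (top t x mu)) ≤
      Module.finrank ℂ (TI (t + 1) x m mu) := by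
    let L : LinearMap.ker (top t x mu) →ₗ[ℂ] TI (t + 1) x m mu :=
      LinearMap.codRestrict _ ((TI (t + 1) (x + 1) m mu).subtype ∘ₗ
        (LinearMap.ker (top t x mu)).subtype) fun f => by
          refine mem_TI_of_ker f.1.2 ?_
          exact congrArg Subtype.val (LinearMap.mem_ker.1 f.2)
    apply LinearMap.finrank_le_finrank_of_injective (f := L)
    intro f g h
    have h5 : (L f : MvPolynomial (Fin m × Fin (t + 1)) ℂ) = L g := by rw [h]
    apply Subtype.ext
    apply Subtype.ext
    exact h5
  omega

end Vale.Agent.P181.TW.T1
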