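import Vale.Agent.P181.TW.Defs
import Vale.Agent.P181.DGx.H248.Low
import Vale.Agent.P181.DGx.H831.Trans

set_option autoImplicit false

/-!
# P181, TW (T2): one letter larger than half of the weight
-/

open MvPolynomial

namespace Vale.Agent.P181.TW.T2

open Vale.Agent.P181.T4 (HW)
open Vale.Agent.P181.SZ (TI mem_TI)
open Vale.Agent.P181.SZT0 (rc rc_inj inj_pr coeff_rc rc_mem_HW)
open Vale.Agent.P181.DG (PKT NT KT)
open Vale.Agent.P181.DGx.H831 (mem_PKT pderiv_rc transT)
open Vale.Agent.P181.TW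

lemma mem_KT {w S : ℕ} (hS : 1 ≤ S) {k : Multiset ℕ} :
    k ∈ KT w S ↔ k.sum ≤ w ∧ ∀ x ∈ k, S ≤ x := by
  unfold KT
  simp only [Finset.mem_biUnion, Finset.mem_range, Finset.mem_filter, Finset.mem_image,
    Finset.mem_univ, true_and]
  constructor
  · rintro ⟨u, hu, ⟨p, rfl⟩, h⟩
    exact ⟨by rw [p.parts_sum]; omega, h⟩
  · rintro ⟨h1, h2⟩
    exact ⟨k.sum, by omega, ⟨⟨k, fun {x} hx => by have := h2 x hx; omega, rfl⟩, rfl⟩, h2⟩

/-- No large column. -/
lemma rc_mem_zero {m x t : ℕ} {mu : Fin m → ℕ} {f : MvPolynomial (Fin m × Fin t) ℂ}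
    (hf : f ∈ TI t x m mu) :
    rc m (Sum.inr : Fin t → Empty ⊕ Fin t) f ∈ PKT m (x + 1) Empty (fun _ => 0) t mu := by
  obtain ⟨h0, h1, h2, h3⟩ := mem_TI.1 hf
  have hι : Function.Injective (Sum.inr : Fin t → Empty ⊕ Fin t) := Sum.inr_injective
  refine mem_PKT.2 ⟨(rc_mem_HW hι).2 h0, ?_, ?_, ?_⟩
  · intro v hv
    obtain ⟨u, hu, h4, h5⟩ := coeff_rc hι hv
    refine ⟨fun j => j.elim, fun j => ?_⟩
    have h6 := h2 u hu j
    rw [Finset.sum_congr rfl fun i _ => h4 i j]
    omega
  · intro ε s _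
    have h4 : rename (fun p : Fin m × (Empty ⊕ Fin t) => (p.1, Sum.map ε s p.2))
        (rc m (Sum.inr : Fin t → Empty ⊕ Fin t) f) = rc m (Sum.inr : Fin t → Empty ⊕ Fin t)
          (rename (fun p : Fin m × Fin t => (p.1, s p.2)) f) := by
      rw [rc, rename_rename, rename_rename]
      rfl
    rw [h4, h1 s]
  · intro i
    rw [Finset.sum_congr rfl fun j _ => pderiv_rc hι i j f, ← map_sum, h3 i, map_zero]

lemma le_zero (m x t : ℕ) (mu : Fin m → ℕ) :
    Module.finrank ℂ (TI t x m mu) ≤ NT m (x + 1) mu 0 t := by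
  have h := transT m (x + 1) Empty (fun _ => 0) t mu
  have h1 : (Finset.univ : Finset Empty).val.map (fun _ => 0) = (0 : Multiset ℕ) := rfl
  rw [h1] at h
  rw [← h]
  let L : TI t x m mu →ₗ[ℂ] PKT m (x + 1) Empty (fun _ => 0) t mu :=
    (rc m (Sum.inr : Fin t → Empty ⊕ Fin t)).toLinearMap.restrict fun f hf => rc_mem_zero hf
  refine LinearMap.finrank_le_finrank_of_injective (f := L) ?_
  intro f g hfg
  apply Subtype.ext
  apply rc_inj (m := m) (Sum.inr_injective : Function.Injective (Sum.inr : Fin t → Empty ⊕ Fin t))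
  exact congrArg Subtype.val hfg

/-- The bijection of the columns. -/
def io (t : ℕ) : Option (Fin t) → Unit ⊕ Fin t := fun o => o.elim (Sum.inl ()) Sum.inr

lemma io_inj (t : ℕ) : Function.Injective (io t) := by
  intro o o' h
  rcases o with _ | j <;> rcases o' with _ | j'
  · rfl
  · exact absurd h (by simp [io])
  · exact absurd h (by simp [io])
  · have h1 : (Sum.inr j : Unit ⊕ Fin t) = Sum.inr j' := h
    rw [Sum.inr_injective h1]

/-- One large column. -/
lemma rc_mem_one {m x t : ℕ} {mu : Fin m → ℕ} (hw : ∑ i, mu i < 2 * (x + 1))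
    {f : MvPolynomial (Fin m × Option (Fin t)) ℂ} (hf : f ∈ PX m (x + 1) t mu) :
    rc m (io t) f ∈ PKT m (x + 1) Unit (fun _ => x + 1) t mu := by
  obtain ⟨h0, h1, h2, h3⟩ := mem_PX.1 hf
  refine mem_PKT.2 ⟨(rc_mem_HW (io_inj t)).2 h0, ?_, ?_, ?_⟩
  · intro v hv
    obtain ⟨u, hu, h4, h5⟩ := coeff_rc (io_inj t) hv
    have h6 := h1 u hu
    refine ⟨fun j => ?_, fun j => ?_⟩
    · have h7 : ∀ i, v (i, Sum.inl j) = u (i, none) := fun i => h4 i none
      rw [Finset.sum_congr rfl fun i _ => h7 i, h6]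
    · have h7 : ∀ i, v (i, Sum.inr j) = u (i, some j) := fun i => h4 i (some j)
      rw [Finset.sum_congr rfl fun i _ => h7 i]
      have h8 : ∑ i, ∑ o : Option (Fin t), u (i, o) = ∑ i, mu i :=
        Finset.sum_congr rfl fun i _ => h0.1 u hu i
      rw [Finset.sum_comm, Fintype.sum_option, h6] at h8
      have h9 : ∑ i, u (i, some j) ≤ ∑ j : Fin t, ∑ i, u (i, some j) :=
        Finset.single_le_sum (f := fun j : Fin t => ∑ i, u (i, some j))
          (fun _ _ => Nat.zero_le _) (Finset.mem_univ j)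
      omega
  · intro ε s _
    have h4 : rename (fun p : Fin m × (Unit ⊕ Fin t) => (p.1, Sum.map ε s p.2))
        (rc m (io t) f) = rc m (io t)
          (rename (fun p : Fin m × Option (Fin t) => (p.1, p.2.map s)) f) := by
      rw [rc, rename_rename, rename_rename]
      congr 2
      funext p
      obtain ⟨i, o⟩ := p
      rcases o with _ | j
      · rfl
      · rfl
    rw [h4, h2 s]
  · intro i
    have h4 : ∀ j : Fin t, pderiv (i, (Sum.inr j : Unit ⊕ Fin t)) (rc m (io t) f)
        = rc m (io t) (pderiv (i, some j) f) := fun j => pderiv_rc (io_inj t) i (some j) f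
    rw [Finset.sum_congr rfl fun j _ => h4 j, ← map_sum, h3 i, map_zero]

lemma le_one (m x t : ℕ) (mu : Fin m → ℕ) (hw : ∑ i, mu i < 2 * (x + 1)) :
    NX m (x + 1) t mu ≤ NT m (x + 1) mu {x + 1} t := by
  have h := transT m (x + 1) Unit (fun _ => x + 1) t mu
  have h1 : (Finset.univ : Finset Unit).val.map (fun _ => x + 1) = ({x + 1} : Multiset ℕ) := rfl
  rw [h1] at h
  rw [← h]
  let L : PX m (x + 1) t mu →ₗ[ℂ] PKT m (x + 1) Unit (fun _ => x + 1) t mu :=
    (rc m (io t)).toLinearMap.restrict fun f hf => rc_mem_one hw hf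
  refine LinearMap.finrank_le_finrank_of_injective (f := L) ?_
  intro f g hfg
  apply Subtype.ext
  apply rc_inj (m := m) (io_inj t)
  exact congrArg Subtype.val hfg

/-- A letter larger than the weight. -/
lemma NX_eq_zero (m x t : ℕ) (mu : Fin m → ℕ) (hw : ∑ i, mu i < x) : NX m x t mu = 0 := by
  have h1 : PX m x t mu = ⊥ := by
    rw [Submodule.eq_bot_iff]
    intro f hf
    obtain ⟨h0, h1, _, _⟩ := mem_PX.1 hf
    ext v
    rw [coeff_zero]
    by_contra hv
    have h6 := h1 v hv
    have h8 : ∑ i, ∑ o : Option (Fin t), v (i, o) = ∑ i, mu i :=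
      Finset.sum_congr rfl fun i _ => h0.1 v hv i
    rw [Finset.sum_comm, Fintype.sum_option, h6] at h8
    omega
  unfold NX
  rw [h1]
  exact finrank_bot ℂ _

/-- **(E2)** -/
theorem e2 : E2 := by
  classical
  intro t x m mu hx hw
  have h := DGx.H248.lowT (x + 1) (t + 3) m (x + 1) mu (by omega) (by omega)
  refine le_trans ?_ h
  by_cases hxw : x + 1 ≤ ∑ i, mu i
  · have h1 : ({0, {x + 1}} : Finset (Multiset ℕ)) ⊆ (KT (∑ i, mu i) (x + 1)).filter
        (fun k => 3 * Multiset.card k ≤ t + 3 ∧ ∀ y ∈ k, y ≤ x + 1) := by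
      intro k hk
      rw [Finset.mem_insert, Finset.mem_singleton] at hk
      rcases hk with rfl | rfl
      · refine Finset.mem_filter.2 ⟨(mem_KT (by omega)).2 ⟨?_, ?_⟩, ?_, ?_⟩
        · simp
        · intro y hy
          exact absurd hy (Multiset.notMem_zero y)
        · simp
        · intro y hy
          exact absurd hy (Multiset.notMem_zero y)
      · refine Finset.mem_filter.2 ⟨(mem_KT (by omega)).2 ⟨?_, ?_⟩, ?_, ?_⟩
        · rw [Multiset.sum_singleton]
          exact hxw
        · intro y hy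
          rw [Multiset.mem_singleton] at hy
          omega
        · rw [Multiset.card_singleton]
          omega
        · intro y hy
          rw [Multiset.mem_singleton] at hy
          omega
    refine le_trans ?_ (Finset.sum_le_sum_of_subset h1)
    rw [Finset.sum_pair (by
      intro h2
      have h3 := congrArg Multiset.card h2
      simp at h3)]
    refine add_le_add ?_ ?_
    · rw [Multiset.card_zero]
      exact le_zero m x (t + 3) mu
    · rw [Multiset.card_singleton]
      exact le_one m x t mu hw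
  · have h1 : ({0} : Finset (Multiset ℕ)) ⊆ (KT (∑ i, mu i) (x + 1)).filter
        (fun k => 3 * Multiset.card k ≤ t + 3 ∧ ∀ y ∈ k, y ≤ x + 1) := by
      intro k hk
      rw [Finset.mem_singleton] at hk
      subst hk
      refine Finset.mem_filter.2 ⟨(mem_KT (by omega)).2 ⟨?_, ?_⟩, ?_, ?_⟩
      · simp
      · intro y hy
        exact absurd hy (Multiset.notMem_zero y)
      · simp
      · intro y hy
        exact absurd hy (Multiset.notMem_zero y)
    refine le_trans ?_ (Finset.sum_le_sum_of_subset h1)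
    rw [Finset.sum_singleton, NX_eq_zero m (x + 1) t mu (by omega), Multiset.card_zero]
    exact le_zero m x (t + 3) mu

end Vale.Agent.P181.TW.T2
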