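import Vale.Agent.P181.SZR1a.TI

set_option autoImplicit false

/-!
# P181, TW: at most `2 a` cells below row one, all `a ≤ b`: the literals

`w = ∑ i, mu i` is the number of cells below row one.
-/

open MvPolynomial

namespace Vale.Agent.P181.TW

open Vale.Agent.P181.T4 (HW)
open Vale.Agent.P181.SZ (TI)

/-- The highest weight polynomials of weight `mu` in the columns `none` and `some j`, `j : Fin t`,
of degree `x` in the column `none`, symmetric and translation invariant in the other columns. -/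
noncomputable def PX (m x t : ℕ) (mu : Fin m → ℕ) :
    Submodule ℂ (MvPolynomial (Fin m × Option (Fin t)) ℂ) where
  carrier := {f | f ∈ HW m (Option (Fin t)) mu ∧
    (∀ v, coeff v f ≠ 0 → ∑ i, v (i, none) = x) ∧
    (∀ e : Equiv.Perm (Fin t),
      rename (fun p : Fin m × Option (Fin t) => (p.1, p.2.map e)) f = f) ∧
    ∀ i, ∑ j : Fin t, pderiv (i, some j) f = 0}
  zero_mem' := ⟨zero_mem _, fun v hv => absurd (coeff_zero v) hv, fun _ => map_zero _,
    fun i => Finset.sum_eq_zero fun j _ => map_zero _⟩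
  add_mem' := by
    rintro f g ⟨hf1, hf2, hf3, hf4⟩ ⟨hg1, hg2, hg3, hg4⟩
    refine ⟨add_mem hf1 hg1, fun v hv => ?_, fun e => by rw [map_add, hf3 e, hg3 e], fun i => ?_⟩
    · rw [coeff_add] at hv
      by_cases h : coeff v f = 0
      · rw [h, zero_add] at hv
        exact hg2 v hv
      · exact hf2 v h
    · have h : ∑ j : Fin t, pderiv (i, some j) (f + g) =
          ∑ j : Fin t, pderiv (i, some j) f + ∑ j : Fin t, pderiv (i, some j) g := by
        rw [← Finset.sum_add_distrib]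
        exact Finset.sum_congr rfl fun j _ => map_add _ _ _
      rw [h, hf4 i, hg4 i, add_zero]
  smul_mem' := by
    rintro c f ⟨hf1, hf2, hf3, hf4⟩
    refine ⟨Submodule.smul_mem _ c hf1, fun v hv => ?_, fun e => by rw [map_smul, hf3 e],
      fun i => ?_⟩
    · rw [coeff_smul, smul_eq_mul] at hv
      exact hf2 v (right_ne_zero_of_mul hv)
    · have h : ∑ j : Fin t, pderiv (i, some j) (c • f) =
          c • ∑ j : Fin t, pderiv (i, some j) f := by
        rw [Finset.smul_sum]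
        exact Finset.sum_congr rfl fun j _ => Derivation.map_smul _ _ _
      rw [h, hf4 i, smul_zero]

lemma mem_PX {m x t : ℕ} {mu : Fin m → ℕ} {f : MvPolynomial (Fin m × Option (Fin t)) ℂ} :
    f ∈ PX m x t mu ↔ f ∈ HW m (Option (Fin t)) mu ∧
      (∀ v, coeff v f ≠ 0 → ∑ i, v (i, none) = x) ∧
      (∀ e : Equiv.Perm (Fin t),
        rename (fun p : Fin m × Option (Fin t) => (p.1, p.2.map e)) f = f) ∧
      ∀ i, ∑ j : Fin t, pderiv (i, some j) f = 0 := Iff.rfl

instance finiteDimensional_PX (m x t : ℕ) (mu : Fin m → ℕ) :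
    FiniteDimensional ℂ (PX m x t mu) :=
  Submodule.finiteDimensional_of_le (S₂ := HW m (Option (Fin t)) mu) fun _ h => h.1

/-- The multiplicity of `S_mu` in `Sym^x ⊗ T(t)`, `T(t)` = the translation invariant symmetric
functions of `t` points. -/
noncomputable def NX (m x t : ℕ) (mu : Fin m → ℕ) : ℕ := Module.finrank ℂ (PX m x t mu)

/-- **(E1)** the component of degree `x + 1` in the first column. -/
def E1 : Prop := ∀ (t x m : ℕ) (mu : Fin m → ℕ),
  Module.finrank ℂ (TI (t + 1) (x + 1) m mu) ≤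
    Module.finrank ℂ (TI (t + 1) x m mu) + NX m (x + 1) t mu

/-- **(E2)** `(f, G) ↦ f + Sym G(Y_1 + Y_2 - 2 Y_3; Y_4, ..)`. -/
def E2 : Prop := ∀ (t x m : ℕ) (mu : Fin m → ℕ), 1 ≤ x → ∑ i, mu i < 2 * (x + 1) →
  Module.finrank ℂ (TI (t + 3) x m mu) + NX m (x + 1) t mu ≤
    Module.finrank ℂ (TI (t + 3) (x + 1) m mu)

/-- **(Mono)** one more point. -/
def Mono : Prop := ∀ (m x t : ℕ) (mu : Fin m → ℕ), NX m x t mu ≤ NX m x (t + 1) mu

/-- **(Stab)** more points than the degree. -/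
def Stab : Prop := ∀ (m x t : ℕ) (mu : Fin m → ℕ), ∑ i, mu i ≤ x + t →
  NX m x (t + 1) mu ≤ NX m x t mu

/-- **(E3)** `(f, G) ↦ A(f) + B(G)`, `B(G) = ∏ j, (q_j · ∂_v) G`, `c + 1` centred points `q_j`. -/
def E3 : Prop := ∀ (c m : ℕ) (mu : Fin m → ℕ), 1 ≤ c → ∑ i, mu i ≤ 2 * c →
  Module.finrank ℂ (TI c (∑ i, mu i) m mu) + NX m (c + 1) (c + 1) mu ≤
    Module.finrank ℂ (TI (c + 1) (∑ i, mu i) m mu)

/-- The polarization `P_j = q_j · ∂_v`: `v` is the column `none`, `q_j` the column `some j`. -/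
noncomputable def pol {m M : ℕ} (j : Fin M) :
    MvPolynomial (Fin m × Option (Fin M)) ℂ →ₗ[ℂ] MvPolynomial (Fin m × Option (Fin M)) ℂ :=
  ∑ i : Fin m, (LinearMap.mulLeft ℂ (X (i, some j))) ∘ₗ
    (pderiv (R := ℂ) (i, (none : Option (Fin M)))).toLinearMap

/-- `P_1 P_2 ⋯ P_M`. -/
noncomputable def polAll {m M : ℕ} :
    MvPolynomial (Fin m × Option (Fin M)) ℂ →ₗ[ℂ] MvPolynomial (Fin m × Option (Fin M)) ℂ :=
  ((List.finRange M).map fun j => (pol j : Module.End ℂ (MvPolynomial (Fin m × Option (Fin M)) ℂ))).prod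

/-- **(M)** the kernel lemma. -/
def KerM : Prop := ∀ (m M : ℕ) (g : MvPolynomial (Fin m × Option (Fin M)) ℂ), 1 ≤ M →
  (∀ v, coeff v g ≠ 0 → ∑ i, v (i, none) = M + 1 ∧ ∑ j : Fin M, ∑ i, v (i, some j) + 1 ≤ M) →
  polAll (∑ j : Fin M, pol j g) = 0 → g = 0

end Vale.Agent.P181.TW
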