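import Vale.Agent.P181.TW.T4
import Vale.Agent.P181.TW.Defs

set_option autoImplicit false

/-!
# P181, TW, T4: the kernel lemma (M), the literal `KerM`
-/

open MvPolynomial

namespace Vale.Agent.P181.TW.H312

open Vale.Agent.P181.SZR3 (colD colD_eq)

lemma pol_eq {m M : ℕ} (j : Fin M) (f : MvPolynomial (Fin m × Option (Fin M)) ℂ) :
    pol j f = colD (some j) none f := by
  rw [colD_eq, pol, LinearMap.sum_apply]
  rfl

lemma opL_append {m : ℕ} {σ : Type} [DecidableEq σ] (v : σ) (l l' : List σ)
    (f : MvPolynomial (Fin m × σ) ℂ) : opL v (l ++ l') f = opL v l' (opL v l f) := by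
  induction l generalizing f with
  | nil => rfl
  | cons j l ih =>
    rw [List.cons_append, opL_cons, opL_cons, ih]

lemma prod_pol_eq {m M : ℕ} (l : List (Fin M)) (f : MvPolynomial (Fin m × Option (Fin M)) ℂ) :
    (l.map fun j => (pol j : Module.End ℂ (MvPolynomial (Fin m × Option (Fin M)) ℂ))).prod f =
      opL none (l.map some).reverse f := by
  induction l with
  | nil => rfl
  | cons j l ih =>
    rw [List.map_cons, List.prod_cons, Module.End.mul_apply, ih, List.map_cons,
      List.reverse_cons, opL_append, opL_cons, opL_nil]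
    exact pol_eq j _

/-- `polAll` is the product of the operators in any order. -/
lemma polAll_eq {m M : ℕ} (f : MvPolynomial (Fin m × Option (Fin M)) ℂ) :
    polAll f = opL none ((List.finRange M).map some) f := by
  rw [polAll, prod_pol_eq]
  exact opL_perm (List.reverse_perm _) (by simp) f

/-- **(M)** -/
theorem kerM_holds : KerM := by
  intro m M g _ hg h0
  refine kerM m M g hg ?_
  rw [polAll_eq] at h0
  simpa only [pol_eq] using h0

end Vale.Agent.P181.TW.H312
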