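import Vale.Agent.P181.TW.Main
import Vale.Agent.P181.TW.T1
import Vale.Agent.P181.TW.T2
import Vale.Agent.P181.TW.T3.Main
import Vale.Agent.P181.TW.T5.Fin

set_option autoImplicit false

/-!
# P181, TW: Foulkes' inequality with at most `2 a` cells below row one, for all `a ≤ b`
-/

namespace Vale.Agent.P181.TW

open Vale.Agent.P181.H280 (plethMult)
open Vale.Agent.P181.PL (dn)

/-- **(TW)** Foulkes' inequality for all `a ≤ b` if there are less than `2 a` cells below row one
(or `2 a` cells and `a + 2 ≤ b`). -/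
theorem twice : ∀ a b : ℕ, a ≤ b → ∀ (n : ℕ) (lam : Fin n → ℕ), dn lam 1 ≤ 2 * a →
    (dn lam 1 < 2 * a ∨ a + 2 ≤ b) → plethMult a b n lam ≤ plethMult b a n lam :=
  fun a b hab n lam => twice_of T1.e1 T2.e2 T3.mono T3.stabT T5.e3 a b hab n lam

end Vale.Agent.P181.TW
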