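import Vale.Agent.P181.TW.Asm
import Vale.Agent.P181.SZR1a.Main
import Vale.Agent.P181.SZR2a.LowerA
import Vale.Agent.P181.H777.Mono
import Vale.Agent.P181.T4.Big
import Vale.Agent.P181.PL.Defs

set_option autoImplicit false

/-!
# P181, TW: Foulkes' inequality with at most `2 a` cells below row one, for all `a ≤ b`
-/

namespace Vale.Agent.P181.TW

open Vale.Agent.P181.H280 (plethMult)
open Vale.Agent.P181.SZ (TI tl)
open Vale.Agent.P181.PL (dn)

lemma dn_one {m : ℕ} (lam : Fin (m + 1) → ℕ) : dn lam 1 = ∑ i, tl lam i := by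
  rw [dn, Fin.sum_univ_succ]
  have h0 : (if 1 ≤ ((0 : Fin (m + 1)) : ℕ) then lam 0 else 0) = 0 := by simp
  rw [h0, zero_add]
  refine Finset.sum_congr rfl fun i _ => ?_
  rw [if_pos (by simp)]
  rfl

/-- **(TW)** Foulkes' inequality if there are less than `2 a` cells below row one (`2 a` cells if
`a + 2 ≤ b`), for all `a ≤ b`. -/
theorem twice_of (h1 : E1) (h2 : E2) (hm : Mono) (hs : Stab) (h3 : E3) (a b : ℕ) (hab : a ≤ b)
    (n : ℕ) (lam : Fin n → ℕ) (hw : dn lam 1 ≤ 2 * a) (hw2 : dn lam 1 < 2 * a ∨ a + 2 ≤ b) :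
    plethMult a b n lam ≤ plethMult b a n lam := by
  rcases Nat.eq_or_lt_of_le hab with rfl | hab
  · exact le_rfl
  by_cases ha : 3 ≤ a
  · by_cases hsum : ∑ i, lam i = a * b
    · cases n with
      | zero =>
        rw [Finset.univ_eq_empty, Finset.sum_empty] at hsum
        have : 0 < a * b := Nat.mul_pos (by omega) (by omega)
        omega
      | succ m =>
        rw [dn_one] at hw hw2
        exact (Vale.Agent.P181.SZ.R1a a b m lam).trans
          ((finrank_TI_le h1 h2 hm hs h3 ha hab hw (by omega)).trans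
            (Vale.Agent.P181.SZR2a.lowerA a b m lam hsum))
    · rw [Vale.Agent.P181.H777.plethMult_eq_zero_of_sum a b lam hsum]
      exact Nat.zero_le _
  · refine Vale.Agent.P181.T4.big ?_ lam
    have h5 : (a - 1) ^ 2 ≤ 1 := by
      have : a - 1 ≤ 1 := by omega
      calc (a - 1) ^ 2 ≤ 1 ^ 2 := Nat.pow_le_pow_left this 2
        _ = 1 := by norm_num
    omega

end Vale.Agent.P181.TW
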