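import Vale.Agent.P181.TW.Defs

set_option autoImplicit false

/-!
# P181, TW: the assembly
-/

open MvPolynomial

namespace Vale.Agent.P181.TW

open Vale.Agent.P181.T4 (HW)
open Vale.Agent.P181.SZ (TI)

/-- If the column degrees cannot exceed `w`, the bound on them does not matter. -/
lemma TI_eq_of_le {a b c m : ℕ} {mu : Fin m → ℕ} (hb : ∑ i, mu i ≤ b) (hc : ∑ i, mu i ≤ c) :
    TI a b m mu = TI a c m mu := by
  have key : ∀ {b c : ℕ}, ∑ i, mu i ≤ c → TI a b m mu ≤ TI a c m mu := by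
    intro b c hc f hf
    refine ⟨hf.1, hf.2.1, fun v hv j => ?_, hf.2.2.2⟩
    have h1 : ∀ i, ∑ j, v (i, j) = mu i := hf.1.1 v hv
    calc ∑ i, v (i, j) ≤ ∑ i, ∑ j, v (i, j) :=
          Finset.sum_le_sum fun i _ => Finset.single_le_sum (f := fun j => v (i, j))
            (fun _ _ => Nat.zero_le _) (Finset.mem_univ j)
      _ = ∑ i, mu i := Finset.sum_congr rfl fun i _ => h1 i
      _ ≤ c := hc
  exact le_antisymm (key hc) (key hb)

/-- Iterated `E1`. -/
lemma e1_iter (h1 : E1) (t m : ℕ) (mu : Fin m → ℕ) (a k : ℕ) :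
    Module.finrank ℂ (TI (t + 1) (a + k) m mu) ≤
      Module.finrank ℂ (TI (t + 1) a m mu) + ∑ x ∈ Finset.range k, NX m (a + x + 1) t mu := by
  induction k with
  | zero => simp
  | succ k ih =>
    rw [Finset.sum_range_succ]
    have h := h1 t (a + k) m mu
    have h' : a + (k + 1) = a + k + 1 := rfl
    rw [h']
    omega

/-- Iterated `E2`. -/
lemma e2_iter (h2 : E2) (t m : ℕ) (mu : Fin m → ℕ) (b k : ℕ) (hb : 1 ≤ b)
    (hw : ∑ i, mu i < 2 * (b + 1)) :
    Module.finrank ℂ (TI (t + 3) b m mu) + ∑ x ∈ Finset.range k, NX m (b + x + 1) t mu ≤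
      Module.finrank ℂ (TI (t + 3) (b + k) m mu) := by
  induction k with
  | zero => simp
  | succ k ih =>
    rw [Finset.sum_range_succ]
    have h := h2 t (b + k) m mu (by omega) (by omega)
    have h' : b + (k + 1) = b + k + 1 := rfl
    rw [h']
    omega

/-- Iterated `E3`. -/
lemma e3_iter (h3 : E3) (m : ℕ) (mu : Fin m → ℕ) (a k : ℕ) (ha : 1 ≤ a)
    (hw : ∑ i, mu i ≤ 2 * a) :
    Module.finrank ℂ (TI a (∑ i, mu i) m mu) +
      ∑ x ∈ Finset.range k, NX m (a + x + 1) (a + x + 1) mu ≤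
      Module.finrank ℂ (TI (a + k) (∑ i, mu i) m mu) := by
  induction k with
  | zero => simp
  | succ k ih =>
    rw [Finset.sum_range_succ]
    have h := h3 (a + k) m mu (by omega) (by omega)
    have h' : a + (k + 1) = a + k + 1 := rfl
    rw [h']
    omega

/-- Iterated `Stab`. -/
lemma stab_iter (hs : Stab) (m x t k : ℕ) (mu : Fin m → ℕ) (hw : ∑ i, mu i ≤ x + t) :
    NX m x (t + k) mu ≤ NX m x t mu := by
  induction k with
  | zero => exact le_rfl
  | succ k ih => exact (hs m x (t + k) mu (by omega)).trans ih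

/-- **(T6)** -/
theorem finrank_TI_le (h1 : E1) (h2 : E2) (hm : Mono) (hs : Stab) (h3 : E3) {a b m : ℕ}
    {mu : Fin m → ℕ} (ha : 3 ≤ a) (hab : a < b) (hw : ∑ i, mu i ≤ 2 * a)
    (hw2 : ∑ i, mu i + 2 ≤ a + b) :
    Module.finrank ℂ (TI a b m mu) ≤ Module.finrank ℂ (TI b a m mu) := by
  set w := ∑ i, mu i with hwdef
  obtain ⟨t, rfl⟩ : ∃ t, a = t + 3 := ⟨a - 3, by omega⟩
  obtain ⟨k, rfl⟩ : ∃ k, b = t + 3 + k + 1 := ⟨b - (t + 3) - 1, by omega⟩
  -- from `b` points, degree `≤ a`, to `b` points, degree `≤ a + (k + 1) + l`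
  obtain ⟨l, hl⟩ : ∃ l, w ≤ t + 3 + k + 1 + l := ⟨w, by omega⟩
  have e1 := e1_iter h1 (t + 3 + k) m mu (t + 3) (k + 1 + l)
  have e2 := e2_iter h2 t m mu (t + 3 + k + 1) l (by omega) (by omega)
  have e3 := e3_iter h3 m mu (t + 3) (k + 1) (by omega) (by omega)
  have q1 : TI (t + 3 + k + 1) (t + 3 + (k + 1 + l)) m mu = TI (t + 3 + k + 1) w m mu :=
    TI_eq_of_le (by omega) le_rfl
  have q2 : TI (t + 3) (t + 3 + k + 1 + l) m mu = TI (t + 3) w m mu :=
    TI_eq_of_le hl le_rfl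
  rw [q1] at e1
  rw [q2] at e2
  rw [← hwdef] at e3
  replace e3 : Module.finrank ℂ (TI (t + 3) w m mu) +
      ∑ x ∈ Finset.range (k + 1), NX m (t + 3 + x + 1) (t + 3 + x + 1) mu ≤
      Module.finrank ℂ (TI (t + 3 + k + 1) w m mu) := e3
  rw [Finset.sum_range_add] at e1
  have s1 : ∑ x ∈ Finset.range (k + 1), NX m (t + 3 + x + 1) (t + 3 + k) mu ≤
      ∑ x ∈ Finset.range (k + 1), NX m (t + 3 + x + 1) (t + 3 + x + 1) mu := by
    refine Finset.sum_le_sum fun x hx => ?_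
    rw [Finset.mem_range] at hx
    by_cases hx' : x = k
    · subst hx'
      exact hm m (t + 3 + x + 1) (t + 3 + x) mu
    · obtain ⟨j, hj⟩ : ∃ j, t + 3 + k = t + 3 + x + 1 + j := ⟨k - x - 1, by omega⟩
      rw [hj]
      exact stab_iter hs m (t + 3 + x + 1) (t + 3 + x + 1) j mu (by omega)
  have s2 : ∑ x ∈ Finset.range l, NX m (t + 3 + (k + 1 + x) + 1) (t + 3 + k) mu ≤
      ∑ x ∈ Finset.range l, NX m (t + 3 + k + 1 + x + 1) t mu := by
    refine Finset.sum_le_sum fun x _ => ?_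
    have h4 : t + 3 + (k + 1 + x) + 1 = t + 3 + k + 1 + x + 1 := by omega
    have h6 := stab_iter hs m (t + 3 + k + 1 + x + 1) t (3 + k) mu (by omega)
    rw [← Nat.add_assoc] at h6
    rw [h4]
    exact h6
  omega

end Vale.Agent.P181.TW
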