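import Vale.Agent.P181.DG4a.Core
import Vale.Agent.P181.DGx.H514.Cmp

set_option autoImplicit false

/-!
# P181, TW, T4: the kernel lemma (M)

Columns `v` and `j ∈ l`, `P j = ∑ i, X (i, j) ∂/∂X (i, v)`. If `g` has degree `|l| + 1` in the
column `v` and total degree `≤ |l| - 1` in the columns of `l`, and
`(∏_{j ∈ l} P j) (∑_{j ∈ l} P j) g = 0`, then `g = 0`.
-/

open MvPolynomial

namespace Vale.Agent.P181.TW.H312

open Vale.Agent.P181.SZR3 (colD itD ColH colD_X itD_zero itD_succ)
open Vale.Agent.P181.DG4a (mv colH_mv itD_inj)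
open Vale.Agent.P181.DG.H514 (cmp coeff_cmp_pos colH_cmp cmp_colD cmp_colD_zero cmp_eq_zero)

variable {m : ℕ} {σ : Type}

/-- Two polarizations out of the same column commute. -/
lemma colD_comm [DecidableEq σ] {a b c : σ} (hac : a ≠ c) (hbc : b ≠ c)
    (f : MvPolynomial (Fin m × σ) ℂ) :
    colD a c (colD b c f) = colD b c (colD a c f) := by
  have h : ⁅(colD a c : Derivation ℂ (MvPolynomial (Fin m × σ) ℂ) (MvPolynomial (Fin m × σ) ℂ)),
      (colD b c : Derivation ℂ (MvPolynomial (Fin m × σ) ℂ) (MvPolynomial (Fin m × σ) ℂ))⁆ = 0 := by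
    apply derivation_ext
    rintro ⟨k, l⟩
    rw [Derivation.commutator_apply, colD_X, colD_X, Derivation.zero_apply]
    by_cases hl : l = c
    · simp [hl, colD_X, hac, hbc]
    · simp [hl]
  have h1 := congrArg (fun D => D f) h
  simp only [Derivation.commutator_apply, Derivation.zero_apply] at h1
  exact sub_eq_zero.1 h1

/-- The product of the operators `colD j v`, `j ∈ l`. -/
noncomputable def opL [DecidableEq σ] (v : σ) : List σ →
    MvPolynomial (Fin m × σ) ℂ → MvPolynomial (Fin m × σ) ℂ
  | [], f => f
  | j :: l, f => opL v l (colD j v f)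

@[simp] lemma opL_nil [DecidableEq σ] (v : σ) (f : MvPolynomial (Fin m × σ) ℂ) :
    opL v [] f = f := rfl

@[simp] lemma opL_cons [DecidableEq σ] (v j : σ) (l : List σ) (f : MvPolynomial (Fin m × σ) ℂ) :
    opL v (j :: l) f = opL v l (colD j v f) := rfl

lemma opL_perm [DecidableEq σ] {v : σ} {l l' : List σ} (h : l.Perm l') (hv : v ∉ l)
    (f : MvPolynomial (Fin m × σ) ℂ) : opL v l f = opL v l' f := by
  induction h generalizing f with
  | nil => rfl
  | cons x _ ih =>
    rw [opL_cons, opL_cons]
    exact ih (fun h => hv (List.mem_cons_of_mem _ h)) _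
  | swap x y l =>
    simp only [opL_cons]
    rw [colD_comm]
    · intro h
      exact hv (by simp [h])
    · intro h
      exact hv (by simp [h])
  | trans h1 _ ih1 ih2 =>
    rw [ih1 hv f, ih2 (fun h => hv (h1.mem_iff.2 h)) f]

lemma opL_zero [DecidableEq σ] (v : σ) (l : List σ) :
    opL v l (0 : MvPolynomial (Fin m × σ) ℂ) = 0 := by
  induction l with
  | nil => rfl
  | cons j l ih => rw [opL_cons, map_zero, ih]

variable [Fintype σ] [DecidableEq σ]

omit [Fintype σ] in
lemma mv_list {d : σ → ℕ} {j v : σ} {l : List σ} (hj : j ∉ l) (hv : v ∉ l) :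
    (l.map (mv d j v)).sum = (l.map d).sum := by
  congr 1
  apply List.map_congr_left
  intro i hi
  have h1 : i ≠ j := fun h => hj (h ▸ hi)
  have h2 : i ≠ v := fun h => hv (h ▸ hi)
  simp only [mv, if_neg h1, if_neg h2]

omit [Fintype σ] [DecidableEq σ] in
lemma le_list_sum {d : σ → ℕ} {j : σ} {l : List σ} (hj : j ∈ l) : d j ≤ (l.map d).sum :=
  List.single_le_sum (fun _ _ => Nat.zero_le _) _ (List.mem_map_of_mem hj)

/-- Peeling the operators one slot at a time. -/
lemma peel {v : σ} : ∀ (n : ℕ) (l : List σ), l.length = n → l.Nodup → v ∉ l →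
    ∀ (d : σ → ℕ) (f : MvPolynomial (Fin m × σ) ℂ), ColH d f → d v = n →
      ((l.map d).sum < n ∨ n = 0) → opL v l f = 0 → f = 0 := by
  intro n
  induction n with
  | zero =>
    intro l hl _ _ d f _ _ _ h0
    rw [List.length_eq_zero_iff] at hl
    subst hl
    exact h0
  | succ n ih =>
    intro l hl hnd hv d f hf hd hs h0
    have hs : (l.map d).sum < n + 1 := by
      rcases hs with hs | hs
      · exact hs
      · omega
    have hex : ∃ j ∈ l, 0 < d j ∨ (l.map d).sum = 0 := by
      by_cases h : ∃ j ∈ l, 0 < d j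
      · obtain ⟨j, hj, hj'⟩ := h
        exact ⟨j, hj, Or.inl hj'⟩
      · push Not at h
        have hne : l ≠ [] := by
          intro h'
          rw [h'] at hl
          simp at hl
        obtain ⟨j, hj⟩ := List.exists_mem_of_ne_nil l hne
        refine ⟨j, hj, Or.inr ?_⟩
        apply List.sum_eq_zero
        intro x hx
        obtain ⟨i, hi, rfl⟩ := List.mem_map.1 hx
        have := h i hi
        omega
    obtain ⟨j, hj, hj'⟩ := hex
    have hp : l.Perm (j :: l.erase j) := List.perm_cons_erase hj
    have hjv : j ≠ v := fun h => hv (h ▸ hj)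
    have hlen : (l.erase j).length = n := by
      rw [List.length_erase_of_mem hj, hl]
      rfl
    have hv' : v ∉ l.erase j := fun h => hv (List.mem_of_mem_erase h)
    have hnj : j ∉ l.erase j := by
      have := hp.nodup_iff.1 hnd
      exact (List.nodup_cons.1 this).1
    have hsum : (l.map d).sum = d j + ((l.erase j).map d).sum := by
      rw [(hp.map d).sum_eq, List.map_cons, List.sum_cons]
    have hle : d j ≤ (l.map d).sum := le_list_sum hj
    rw [opL_perm hp hv, opL_cons] at h0
    have h1 := ih (l.erase j) hlen (hnd.erase j) hv' (mv d j v) (colD j v f)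
      (colH_mv hjv hf (by omega)) (by
        simp only [mv, if_neg (Ne.symm hjv), if_true]
        omega) (by
        rw [mv_list hnj hv']
        by_cases hn : n = 0
        · exact Or.inr hn
        · left
          rcases hj' with h | h
          · omega
          · omega) h0
    refine itD_inj hjv (d j) 1 d f hf rfl (by omega) ?_
    rw [itD_succ, itD_zero, h1]

/-- Components of a given column degree and the product of the operators. -/
lemma cmp_opL {v : σ} : ∀ (l : List σ), v ∉ l → ∀ d : σ → ℕ, l.length ≤ d v →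
    ∃ d' : σ → ℕ, ∀ f : MvPolynomial (Fin m × σ) ℂ, cmp d' (opL v l f) = opL v l (cmp d f) := by
  intro l
  induction l with
  | nil => exact fun _ d _ => ⟨d, fun f => rfl⟩
  | cons j l ih =>
    intro hv d hd
    have hjv : j ≠ v := fun h => hv (by simp [h])
    obtain ⟨d', hd'⟩ := ih (fun h => hv (List.mem_cons_of_mem _ h)) (mv d j v) (by
      simp only [mv, if_neg (Ne.symm hjv), if_true]
      simp only [List.length_cons] at hd
      omega)
    refine ⟨d', fun f => ?_⟩
    rw [opL_cons, opL_cons, hd', cmp_colD]
    intro i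
    simp only [mv]
    simp only [List.length_cons] at hd
    by_cases h1 : i = j
    · subst h1
      simp [Ne.symm hjv]
    · by_cases h2 : i = v
      · subst h2
        simp [hjv, Ne.symm hjv]
        omega
      · simp [h1, h2, Ne.symm h1, Ne.symm h2]

/-- **The kernel lemma (M)**, any finite set of columns. -/
theorem kerM_list {v : σ} (l : List σ) (hnd : l.Nodup) (hv : v ∉ l)
    (g : MvPolynomial (Fin m × σ) ℂ)
    (hg : ∀ u, coeff u g ≠ 0 → ∑ i, u (i, v) = l.length + 1 ∧
      (l.map fun j => ∑ i, u (i, j)).sum + 1 ≤ l.length)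
    (h0 : opL v l (∑ j ∈ l.toFinset, colD j v g) = 0) : g = 0 := by
  by_contra hne
  -- the column
  have hex : ∃ j ∈ l, (∃ u ∈ g.support, 0 < ∑ i, u (i, j)) ∨
      ∀ k ∈ l, ∀ u ∈ g.support, ∑ i, u (i, k) = 0 := by
    by_cases h : ∃ j ∈ l, ∃ u ∈ g.support, 0 < ∑ i, u (i, j)
    · obtain ⟨j, hj, hj'⟩ := h
      exact ⟨j, hj, Or.inl hj'⟩
    · push Not at h
      obtain ⟨u, hu⟩ := Finset.nonempty_iff_ne_empty.2 (fun h' => hne (support_eq_empty.1 h'))
      have h2 := (hg u (mem_support_iff.1 hu)).2
      have hne' : l ≠ [] := by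
        intro h'
        rw [h'] at h2
        simp at h2
      obtain ⟨j, hj⟩ := List.exists_mem_of_ne_nil l hne'
      refine ⟨j, hj, Or.inr fun k hk u hu => ?_⟩
      have := h k hk u hu
      omega
  obtain ⟨j0, hj0, hj0'⟩ := hex
  have hjv : j0 ≠ v := fun h => hv (h ▸ hj0)
  obtain ⟨u0, hu0, hmax⟩ := Finset.exists_max_image g.support (fun u => ∑ i, u (i, j0))
    (Finset.nonempty_iff_ne_empty.2 (fun h' => hne (support_eq_empty.1 h')))
  set d : σ → ℕ := fun j => ∑ i, u0 (i, j) with hd
  have hgd : cmp d g ≠ 0 := by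
    intro h
    have h1 : coeff u0 (cmp d g) = coeff u0 g := coeff_cmp_pos g fun b => rfl
    rw [h, coeff_zero] at h1
    exact mem_support_iff.1 hu0 h1.symm
  have hdv : d v = l.length + 1 := (hg u0 (mem_support_iff.1 hu0)).1
  have hds : (l.map d).sum + 1 ≤ l.length := (hg u0 (mem_support_iff.1 hu0)).2
  -- the leading component
  have h1 : cmp (mv d j0 v) (∑ j ∈ l.toFinset, colD j v g) = colD j0 v (cmp d g) := by
    rw [map_sum, Finset.sum_eq_single j0]
    · apply cmp_colD
      intro i
      simp only [mv]
      by_cases h1 : i = j0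
      · subst h1
        simp [Ne.symm hjv]
      · by_cases h2 : i = v
        · subst h2
          simp [hjv, Ne.symm hjv]
          omega
        · simp [h1, h2, Ne.symm h1, Ne.symm h2]
    · intro j hj hjj
      have hjv' : j ≠ v := fun h => hv (h ▸ List.mem_toFinset.1 hj)
      by_cases hz : mv d j0 v j = 0
      · exact cmp_colD_zero hz g
      · have h2 : cmp (fun b => if b = j then mv d j0 v j - 1 else if b = v then mv d j0 v v + 1
            else mv d j0 v b) g = 0 := by
          apply cmp_eq_zero
          intro u hu hu'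
          have h3 := hu' j0
          rw [if_neg (Ne.symm hjj), if_neg hjv, mv, if_pos rfl] at h3
          have h4 := hmax u (mem_support_iff.2 hu)
          simp only [hd] at h3
          omega
        rw [cmp_colD (δ := fun b => if b = j then mv d j0 v j - 1 else if b = v then
          mv d j0 v v + 1 else mv d j0 v b), h2, map_zero]
        intro i
        by_cases h1 : i = j
        · subst h1
          simp [Ne.symm hjv']
          omega
        · by_cases h2 : i = v
          · subst h2
            simp [hjv', Ne.symm hjv']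
          · simp [h1, h2, Ne.symm h1, Ne.symm h2]
    · intro h
      exact absurd (List.mem_toFinset.2 hj0) h
  obtain ⟨d', hd'⟩ := cmp_opL (m := m) l hv (mv d j0 v) (by
    simp only [mv, if_neg (Ne.symm hjv), if_true]
    omega)
  have h2 : opL v l (colD j0 v (cmp d g)) = 0 := by
    rw [← h1, ← hd', h0, map_zero]
  -- peel
  have hp : l.Perm (j0 :: l.erase j0) := List.perm_cons_erase hj0
  have hlen : (l.erase j0).length = l.length - 1 := List.length_erase_of_mem hj0
  have hv' : v ∉ l.erase j0 := fun h => hv (List.mem_of_mem_erase h)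
  have hnj : j0 ∉ l.erase j0 := (List.nodup_cons.1 (hp.nodup_iff.1 hnd)).1
  have hsum : (l.map d).sum = d j0 + ((l.erase j0).map d).sum := by
    rw [(hp.map d).sum_eq, List.map_cons, List.sum_cons]
  have hle : d j0 ≤ (l.map d).sum := le_list_sum hj0
  have hcase : 0 < d j0 ∨ (l.map d).sum = 0 := by
    rcases hj0' with ⟨u, hu, hu'⟩ | h
    · left
      exact lt_of_lt_of_le hu' (hmax u hu)
    · right
      apply List.sum_eq_zero
      intro x hx
      obtain ⟨i, hi, rfl⟩ := List.mem_map.1 hx
      exact h i hi u0 hu0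
  rw [opL_perm hp hv, opL_cons] at h2
  have h3 : colD j0 v (colD j0 v (cmp d g)) = 0 := by
    refine peel (l.length - 1) (l.erase j0) hlen (hnd.erase j0) hv' (mv (mv d j0 v) j0 v) _
      (colH_mv hjv (colH_mv hjv (colH_cmp d g) (by omega)) (by
        simp only [mv, if_neg (Ne.symm hjv), if_true]
        omega)) (by
        simp only [mv, if_neg (Ne.symm hjv), if_true]
        omega) ?_ h2
    rw [mv_list hnj hv', mv_list hnj hv']
    by_cases hn : l.length - 1 = 0
    · exact Or.inr hn
    · left
      rcases hcase with h | h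
      · omega
      · omega
  apply hgd
  refine itD_inj hjv (d j0) 2 d _ (colH_cmp d g) rfl (by omega) ?_
  rw [itD_succ, itD_succ, itD_zero, h3]

/-- **(M)**, the form of TW: the columns are `none` (`v`) and `some j` (`q_j`). -/
theorem kerM (m M : ℕ) (g : MvPolynomial (Fin m × Option (Fin M)) ℂ)
    (hg : ∀ u, coeff u g ≠ 0 → ∑ i, u (i, none) = M + 1 ∧
      (∑ j : Fin M, ∑ i, u (i, some j)) + 1 ≤ M)
    (h0 : opL none ((List.finRange M).map some) (∑ j : Fin M, colD (some j) none g) = 0) :
    g = 0 := by
  refine kerM_list (v := (none : Option (Fin M))) ((List.finRange M).map some) ?_ ?_ g ?_ ?_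
  · exact (List.nodup_finRange M).map (Option.some_injective _)
  · simp
  · intro u hu
    obtain ⟨h1, h2⟩ := hg u hu
    refine ⟨by simpa using h1, ?_⟩
    rw [List.map_map, List.length_map, List.length_finRange]
    have h3 : ((List.finRange M).map ((fun j => ∑ i, u (i, j)) ∘ some)).sum =
        ∑ j : Fin M, ∑ i, u (i, some j) := by
      rw [← List.ofFn_eq_map, List.sum_ofFn]
      rfl
    rw [h3]
    exact h2
  · have h3 : ∑ j ∈ ((List.finRange M).map some).toFinset, colD j (none : Option (Fin M)) g =
        ∑ j : Fin M, colD (some j) none g := by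
      have h4 : ((List.finRange M).map some).toFinset =
          (Finset.univ : Finset (Fin M)).image (some : Fin M → Option (Fin M)) := by
        ext x
        simp
      rw [h4, Finset.sum_image]
      intro x _ y _ h
      exact Option.some_injective _ h
    rw [h3]
    exact h0

end Vale.Agent.P181.TW.H312
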